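import Vale.Agent.P281.H368.MFS.Main
import Vale.Agent.P281.H368.MFS.Gr2
import Vale.Agent.P281.H413.MFS.KerM
import Vale.Agent.P281.H283.MFS.Mass
import Vale.Agent.P281.H575.MFS.Fib
import Vale.Agent.P281.H949.MFS.RD
import Vale.Agent.P281.H342.MFS.TenM
import Vale.Agent.P281.H342.KG.F2
import Vale.Agent.P281.H708.KD.C0
import Vale.Agent.P281.H970.KD.Int
import Vale.Agent.P281.H575.KD.Log
import Vale.Agent.P281.H455.KD.BDMain

/-! P281, theorem MFS. -/

namespace Vale.Agent.P281.FS

open Vale.Agent.P281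

theorem mainPartM : H368.MFS.MainPartM :=
  H368.MFS.mainPartM_of
    (H413.MFS.kerPartM H227.GMC.cohPart H227.GMC.epsPart H455.KD.bdPart H970.KD.intPart
      (H283.MFS.massPartM H708.c0Part H970.KD.intPart H575.KD.logPart H455.KD.bdPart)
      H342.KG.formPartG H368.MFS.growthPartM H342.MFS.tenPartM)
    (H575.MFS.fibPartM H368.MFS.growthPartM H949.MFS.conPartM)

end Vale.Agent.P281.FS
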