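import Vale.Agent.P281.MathlibUsed
import Mathlib.Analysis.Matrix.PosDef

/-! P281: the definitions of the final statement. -/

namespace Vale.Agent.P281.FS

open scoped Manifold ContDiff Topology ComplexOrder ENNReal
open Filter Set MeasureTheory

noncomputable section

/-! ### complex manifolds `X`, `Y`, `F` modelled on `E`, `E'`, `E₀` -/

section One

variable (E : Type) [NormedAddCommGroup E] [NormedSpace ℂ E] {X : Type} [TopologicalSpace X]
  [ChartedSpace E X]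

/-- `g` is a holomorphic function near `x`. -/
def HolAt (g : X → ℂ) (x : X) : Prop := ContMDiffAt 𝓘(ℂ, E) 𝓘(ℂ, ℂ) ω g x

/-- Differential at `x` of the function `g` (the tangent space at `x` is `E`). -/
def dif (g : X → ℂ) (x : X) : E →L[ℂ] ℂ := mfderiv 𝓘(ℂ, E) 𝓘(ℂ, ℂ) g x

/-- `dg (v)` -/
def dv (g : X → ℂ) (x : X) (v : E) : ℂ := dif E g x v

/-- `dg ≠ 0` at `x`. -/
def NZ (g : X → ℂ) (x : X) : Prop := dif E g x ≠ 0

/-- The Jacobian determinant at `z` of the chart of `X` at `x`. -/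
def jac (x z : X) : ℂ := ContinuousLinearMap.det (mfderiv 𝓘(ℂ, E) 𝓘(ℂ, E) (chartAt E x) z : E →L[ℂ] E)

/-- `g` is a reduced local equation of the closed set `D` near `x`. -/
def Eqn (D : Set X) (g : X → ℂ) (x : X) : Prop :=
  ∃ V : Set X, IsOpen V ∧ x ∈ V ∧ (∀ z ∈ V, HolAt E g z) ∧ (∀ z ∈ V, z ∈ D ↔ g z = 0) ∧
    D ∩ V ⊆ closure {z | z ∈ D ∧ dif E g z ≠ 0}

/-- Prime divisors: closed hypersurfaces whose smooth locus is connected. -/
def IsPrime (D : Set X) : Prop :=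
  IsClosed D ∧ (∀ x, ∃ g, Eqn E D g x) ∧ IsConnected {x | x ∈ D ∧ ∃ g, Eqn E D g x ∧ dif E g x ≠ 0}

/-- `∑ Δ(D) D` is a rational boundary (finite sum, coefficients in `[0, 1]`). -/
def IsBdry (Δ : Set X → ℝ) : Prop :=
  {D | Δ D ≠ 0}.Finite ∧ (∀ D, Δ D ≠ 0 → IsPrime E D) ∧ ∀ D, ∃ q : ℚ, Δ D = q ∧ 0 ≤ q ∧ q ≤ 1

/-- `∑ Δ(D) D` has simple normal crossings at `x`. -/
def SNCAt (Δ : Set X → ℝ) (x : X) : Prop :=
  ∀ g : Set X → X → ℂ, (∀ D, Δ D ≠ 0 → x ∈ D → Eqn E D (g D) x) →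
    Function.Surjective fun (ξ : E) (D : {D // Δ D ≠ 0 ∧ x ∈ D}) => dif E (g D) x ξ

/-- `∑ Δ(D) D` is a rational SNC boundary. -/
def IsSNC (Δ : Set X → ℝ) : Prop := IsBdry E Δ ∧ ∀ x, SNCAt E Δ x

/-- The product of the `e D ^ k D` at the point `z`. -/
def mon {ι : Type} (T : Finset ι) (e : ι → X → ℂ) (k : ι → ℕ) (z : X) : ℂ := ∏ D ∈ T, e D z ^ k D

/-- Let `L = ∑ c(i) L_i`, where `L_i` is the effective divisor with local equations `eqn i`, and let
`k = m c` be integral.  Sections of `m (K_X + L)` are recorded by `s : X → ℂ`, the value of the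
meromorphic `m`-canonical form on the standard frame of the tangent space `E`: near each `z₀`,
`s * ∏ g_i ^ k(i) = a * (dz_1 ∧ ... ∧ dz_n) ^ m` with `a` holomorphic, `g_i` local equation of
`L_i` and `z` the chart at `z₀`. -/
def IsSection {ι : Type} (eqn : ι → X → (X → ℂ) → Prop) (m : ℕ) (k : ι → ℕ) (s : X → ℂ) : Prop :=
  ∀ z₀ : X, ∃ (T : Finset ι) (g : ι → X → ℂ) (a : X → ℂ), (∀ i, k i ≠ 0 → i ∈ T) ∧
    (∀ i ∈ T, eqn i z₀ (g i)) ∧ HolAt E a z₀ ∧
    ∀ᶠ z in 𝓝 z₀, mon T g k z ≠ 0 → s z * mon T g k z = a z * jac E z₀ z ^ m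

/-- The differentials at `x` of the quotients `s (b + 1) / s 0`, `b < l`, are linearly
independent. -/
def Indep (s : ℕ → X → ℂ) (l : ℕ) (x : X) : Prop :=
  s 0 x ≠ 0 ∧ Function.Surjective fun (ξ : E) (b : Fin l) => dif E (fun w => s (b + 1) w / s 0 w) x ξ

/-- The Kodaira dimension `κ(X, K_X + L)`: the supremum of the `j` such that, for some `m > 0` with
`m L` integral, there are sections `s_0, ..., s_j` of `m (K_X + L)` for which the map
`(s_1 / s_0, ..., s_j / s_0)` is submersive somewhere (that is, the image of the map given by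
`|m (K_X + L)|` has dimension at least `j`). -/
def kod {ι : Type} (eqn : ι → X → (X → ℂ) → Prop) (c : ι → ℝ) : WithBot ℕ∞ :=
  ⨆ (j : ℕ) (_ : ∃ (m : ℕ) (k : ι → ℕ) (s : ℕ → X → ℂ) (z : X), 0 < m ∧
    (∀ i, k i = m * c i) ∧ (∀ b, IsSection E eqn m k (s b)) ∧
    (∀ i, k i ≠ 0 → ∃ g, eqn i z g ∧ g z ≠ 0) ∧ Indep E s j z), (j : WithBot ℕ∞)

/-- The tangent vector `w` at `z` is in the kernel of the differential of the map to projective space
with homogeneous coordinates `H b`. -/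
def PKer {N : ℕ} (H : Fin N → X → ℂ) (z : X) (w : E) : Prop :=
  ∀ b b', H b z * dv E (H b') z w = H b' z * dv E (H b) z w

/-- `S b` are (in the frame of `m K_X + ∑ k(D) D` given by the chart of `X` at `x` and the local
equations `e D`) the functions `(∏ g_i ^ a_i) H_b` at the point `z`; `x' = ι z`. -/
def Fr (m : ℕ) (k : Set X → ℕ) (T : Finset (Set X)) (e : Set X → X → ℂ) {F : Type} {N r : ℕ}
    (S : Fin N → X → ℂ) (g : Fin r → F → ℂ) (a : Fin r → ℕ) (H : Fin N → F → ℂ) (x x' : X)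
    (z : F) : Prop :=
  mon T e k x' ≠ 0 → ∀ b, S b x' * mon T e k x' = mon Finset.univ g a z * H b z * jac E x x' ^ m

/-- Some `w ≠ 0` satisfies `P`, `Q`, `R`, or `P` and `Q` hold on a subspace of codimension `≤ ν` in
`E`, where `n = dim E`. -/
def Deg (n ν : ℕ) (P Q R : E → Prop) : Prop :=
  (∃ w, w ≠ 0 ∧ P w ∧ Q w ∧ R w) ∨
    ∃ K : Submodule ℂ E, n ≤ ν + Module.finrank ℂ K ∧ ∀ w ∈ K, P w ∧ Q w

/-- The hypersurface `g = 0` is contracted at its smooth point `z`: some tangent vector `w ≠ 0` of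
`g = 0` is in the kernel of the differential of the map `[H]` and satisfies `R`; or the restriction of
the map `[H]` to `g = 0` has rank less than `ν` at `z` (`n = dim X`). -/
def DegAt (n ν : ℕ) {N : ℕ} (g : X → ℂ) (H : Fin N → X → ℂ) (R : E → Prop) (z : X) : Prop :=
  Deg E n ν (fun w => dv E g z w = 0) (PKer E H z) R

/-- Near `x`, `W = |∏ g_i ^ a_i|² exp (m u) / |∏ e_D ^ k(D)|²` in the coordinates of `chartAt x`, where
`W` is (the `m`-th power of) a singular volume form, the hypersurfaces `g_i = 0` are smooth, the `e_D`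
are local equations of the divisors `D` with `k D ≠ 0`, and `u` satisfies `Q`. -/
def VolIs (m : ℕ) (k : Set X → ℕ) (W : X → ℝ) (Q : (X → ℝ) → Prop) (x : X) {r : ℕ}
    (g : Fin r → X → ℂ) (a : Fin r → ℕ) : Prop :=
  (∀ i, HolAt E (g i) x ∧ NZ E (g i) x) ∧
  ∃ (T : Finset (Set X)) (e : Set X → X → ℂ) (u : X → ℝ), (∀ D, k D ≠ 0 → D ∈ T) ∧
    (∀ D ∈ T, Eqn E D (e D) x) ∧ Q u ∧ ∀ᶠ z in 𝓝 x, mon T e k z ≠ 0 →
      W z * ‖mon T e k z‖ ^ 2 = ‖mon Finset.univ g a z‖ ^ 2 * Real.exp (m * u z) *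
        ‖jac E x z ^ m‖ ^ 2

/-- Everywhere on `X`, `VolIs` for some `g`, `a`, and the hypersurfaces `g_i = 0` are contracted by
`(A, B)`, or `A` has rank less than `ν` on them (`n = dim X`). -/
def VolX (n ν m : ℕ) (k : Set X → ℕ) (W : X → ℝ) (Q : X → (X → ℝ) → Prop) (A B : X → E → Prop) :
    Prop :=
  ∀ x, ∃ (r : ℕ) (g : Fin r → X → ℂ) (a : Fin r → ℕ), VolIs E m k W (Q x) x g a ∧
    ∀ᶠ z in 𝓝 x, ∀ i, g i z = 0 → Deg E n ν (fun w => dv E (g i) z w = 0) (A z) (B z)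

/-- The map `F → ℙ` with homogeneous coordinates `S b ∘ ι` has rank at least `ν` at some point, not
on the divisors `D` with `k D ≠ 0` (`E` is the model of `F = X`). -/
def HasRank (ν : ℕ) {W : Type} (k : Set W → ℕ) (ι : X → W) {N : ℕ} (S : Fin N → W → ℂ) : Prop :=
  ∃ (x : X) (b₀ : Fin N) (c : Fin ν → Fin N), (∀ D, k D ≠ 0 → ι x ∉ D) ∧ S b₀ (ι x) ≠ 0 ∧
    Function.Surjective fun (ξ : E) (b : Fin ν) => dif E (fun z => S (c b) (ι z) / S b₀ (ι z)) x ξ

/-- `j : Z → X` is (biholomorphic onto) the inclusion of an open set whose complement has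
codimension `≥ 2`: locally, the complement is contained in a hypersurface `{h = 0}` with
`{h = 0} ∩ j(Z)` dense in `{h = 0}`. -/
def BigOpen {Z : Type} [TopologicalSpace Z] [ChartedSpace E Z] (j : Z → X) : Prop :=
  ContMDiff 𝓘(ℂ, E) 𝓘(ℂ, E) ω j ∧ Topology.IsOpenEmbedding j ∧
    (∀ z, Function.Injective (mfderiv 𝓘(ℂ, E) 𝓘(ℂ, E) j z)) ∧
    ∀ x, ∃ h : X → ℂ, HolAt E h x ∧ (¬ ∀ᶠ z in 𝓝 x, h z = 0) ∧
      ∀ᶠ z in 𝓝 x, (z ∉ range j → h z = 0) ∧
        (h z = 0 → z ∈ closure {z | h z = 0 ∧ z ∈ range j})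

/-- `u : Z → X` is a proper bimeromorphic holomorphic map of complex manifolds (the points of a dense
open subset of `X` have one preimage). -/
def IsModif {Z : Type} [TopologicalSpace Z] [ChartedSpace E Z] (u : Z → X) : Prop :=
  (T2Space X ∧ T2Space Z ∧ IsManifold 𝓘(ℂ, E) ω X ∧ IsManifold 𝓘(ℂ, E) ω Z) ∧
    ContMDiff 𝓘(ℂ, E) 𝓘(ℂ, E) ω u ∧ IsProperMap u ∧
      ∃ U, IsOpen U ∧ Dense U ∧ Dense (u ⁻¹' U) ∧ ∀ x ∈ U, ∃! z, u z = x

end One

/-- `ℂⁿ`. -/
abbrev Cm (n : ℕ) : Type := Fin n → ℂ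

/-- Atlases of `X` with charts in `ℂⁿ`. -/
abbrev Mfd (n : ℕ) (X : Type) [TopologicalSpace X] : Type := ChartedSpace (Cm n) X

/-- The products `S b * S' c`. -/
def prodF {X : Type} {N N' : ℕ} (S : Fin N → X → ℂ) (S' : Fin N' → X → ℂ) (a : Fin (N * N'))
    (z : X) : ℂ :=
  S (finProdFinEquiv.symm a).1 z * S' (finProdFinEquiv.symm a).2 z

section Two

variable (E E' E₀ : Type) [NormedAddCommGroup E] [NormedSpace ℂ E]
  [NormedAddCommGroup E'] [NormedSpace ℂ E'] [NormedAddCommGroup E₀] [NormedSpace ℂ E₀]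
variable {X Y Z F : Type} [TopologicalSpace X] [ChartedSpace E X]
  [TopologicalSpace Y] [ChartedSpace E' Y] [TopologicalSpace F] [ChartedSpace E₀ F]
  [TopologicalSpace Z] [ChartedSpace E Z]

/-- `κ(F, K_F + ι^* Δ)` for `ι : F → X` -/
def kodR (ι : F → X) (Δ : Set X → ℝ) : WithBot ℕ∞ :=
  kod E₀ (fun D t g => ∃ e, Eqn E D e (ι t) ∧ ∀ᶠ t' in 𝓝 t, g t' = e (ι t')) Δ

/-- `κ(X, K_X + Δ)` -/
def kodX (Δ : Set X → ℝ) : WithBot ℕ∞ := kod E (fun D x g => Eqn E D g x) Δ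

/-- The holomorphic immersion `i` maps `F` to a fibre of `f : X → Y`, and `f` is submersive along
`i(F)` (for instance, `F` is a smooth fibre of `f`). -/
def SmoothFibre (f : X → Y) (i : F → X) : Prop :=
  ContMDiff 𝓘(ℂ, E₀) 𝓘(ℂ, E) ω i ∧ (∀ t, Function.Injective (mfderiv 𝓘(ℂ, E₀) 𝓘(ℂ, E) i t)) ∧
    (∀ t t', f (i t) = f (i t')) ∧ ∀ t, Function.Surjective (mfderiv 𝓘(ℂ, E) 𝓘(ℂ, E') f (i t))

open Classical in
/-- The orbifold base `B(f, Δ)` (the infimum of the multiplicities runs over the prime divisors `D`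
of `X` such that `f(D)` is dense in `G`). -/
def base (f : X → Y) (Δ : Set X → ℝ) (G : Set Y) : ℝ :=
  if IsPrime E' G then (1 - (⨅ (D : Set X) (_ : IsPrime E D ∧ closure (f '' D) = G),
    ((sInf {k : ℕ | ∃ x ∈ D, ∃ e g w, Eqn E D e x ∧ Eqn E' G g (f x) ∧ HolAt E w x ∧
      w x ≠ 0 ∧ ∀ᶠ z in 𝓝 x, g (f z) = e z ^ k * w z} : ℕ) : ℝ≥0∞) *
    (1 - ENNReal.ofReal (Δ D))⁻¹)⁻¹).toReal else 0

/-- `df (v)` at `z`, where the vector `v` is given in the chart of `X` at `x`. -/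
def dch (j : Z → X) (f : Z → Y) (x : X) (z : Z) (v : E) : E' :=
  (mfderiv 𝓘(ℂ, E) 𝓘(ℂ, E') f z : E →L[ℂ] E')
    (Ring.inverse (M₀ := E →L[ℂ] E) (mfderiv 𝓘(ℂ, E) 𝓘(ℂ, E) (fun w => chartAt E x (j w)) z) v)

/-- `σ` is a meromorphic section of `m K_Y` (with poles on the prime divisors `G ∈ 𝒢`; it is recorded
as in `IsSection`), whose pull-back by `f : X ⇢ Y` (holomorphic on the open subset `Z` of `X`) has
poles of order at most `K D` along the divisors `D`, and no other poles (`c x z I` are the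
coefficients of the pull-back of the frame of `m K_Y`, in the chart of `X` at `x`). -/
def PullSec (m : ℕ) (K : Set X → ℕ) (𝒢 : Set (Set Y)) (j : Z → X) (f : Z → Y) {T : Type}
    (c : X → Z → T → ℂ) (σ : Y → ℂ) : Prop :=
  (∃ k : Set Y → ℕ, (∀ G, k G ≠ 0 → G ∈ 𝒢) ∧ IsSection E' (fun G y g => Eqn E' G g y) m k σ) ∧
  ∀ x : X, ∃ (T : Finset (Set X)) (g : Set X → X → ℂ), (∀ D, K D ≠ 0 → D ∈ T) ∧
    (∀ D ∈ T, Eqn E D (g D) x) ∧ ∀ I, ∃ a : X → ℂ,
      HolAt E a x ∧ ∀ᶠ y in 𝓝 x, ∀ z, j z = y → (∀ G ∈ 𝒢, f z ∉ G) → mon T g K y ≠ 0 →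
        σ (f z) * c x z I * mon T g K y = a y

/-- The curve `s ↦ c (s, 0)` meets the divisor `D` at `s = t` with multiplicity `l` (`E₀ = ℂ^q`). -/
def Ord (D : Set X) (c : ℂ × E₀ → X) (t : ℂ) (l : ℕ) : Prop :=
  ∃ (g : X → ℂ) (u : ℂ → ℂ), Eqn E D g (c (t, 0)) ∧ AnalyticAt ℂ u t ∧ u t ≠ 0 ∧
    ∀ᶠ s in 𝓝 t, g (c (s, 0)) = (s - t) ^ l * u s

/-- `c (t, u)`, `t ∈ ℂ ∪ {∞}`, `u ∈ ℂ^q` close to `0`, is a holomorphic family of rational curves in
`X` (near `t = ∞` it is `c' (1/t, u)`), and `Δ · C < 2`, where `C` is the curve `u = 0` of the family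
(`l D t` and `l' D` are the intersection numbers of `D` and `C` at the points `t` and `∞`). -/
def RatCurve (Δ : Set X → ℝ) (c c' : ℂ × E₀ → X) : Prop :=
  (∀ t, ContMDiffAt 𝓘(ℂ, ℂ × E₀) 𝓘(ℂ, E) ω c (t, 0)) ∧
  ContMDiffAt 𝓘(ℂ, ℂ × E₀) 𝓘(ℂ, E) ω c' (0, 0) ∧
  (∀ t, t ≠ 0 → ∀ᶠ w in 𝓝 ((t, 0) : ℂ × E₀), c w = c' (w.1⁻¹, w.2)) ∧
  ∃ (Q : Finset ℂ) (l : Set X → ℂ → ℕ) (l' : Set X → ℕ),
    (∀ D, Δ D ≠ 0 → (∀ t, t ∉ Q → l D t = 0) ∧ (∀ t, Ord E E₀ D c t (l D t)) ∧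
      Ord E E₀ D c' 0 (l' D)) ∧
    ∑ᶠ D, Δ D * (∑ t ∈ Q, (l D t : ℝ) + l' D) < 2

/-- Through the point `x` of the hypersurface `g = 0`, not on `Δ`, passes a rational curve `C` with
`Δ · C < 2`, a member of a family of rational curves filling `g = 0` (to first order at `x`), whose
tangent `v` at `x` is in `g = 0` and satisfies `P`. -/
def RatAt (Δ : Set X → ℝ) (g : X → ℂ) (P : E → Prop) (x : X) (c c' : ℂ × E₀ → X) : Prop :=
  ∃ v : E, RatCurve E E₀ Δ c c' ∧ c (0, 0) = x ∧ (∀ D, Δ D ≠ 0 → x ∉ D) ∧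
    (∀ w, dv E g x w = 0 → ∃ a, mfderiv 𝓘(ℂ, ℂ × E₀) 𝓘(ℂ, E) c (0, 0) a = w) ∧
    mfderiv 𝓘(ℂ, ℂ × E₀) 𝓘(ℂ, E) c (0, 0) (1, 0) = v ∧ v ≠ 0 ∧ dv E g x v = 0 ∧ P v

/-- `S b` are sections of `m K_X + ∑ k(D) D` and `S' b` of `m' K_X + ∑ k'(D) D`, `ι : F → X` is
holomorphic (the identity of `X`, or a fibre).  Near every point of `F`, `S b ∘ ι` and `S' b ∘ ι` are
`(∏ g_i ^ a_i) H_b` and `(∏ g_i ^ a'_i) H'_b` in frames of these line bundles (`e D` are local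
equations of the divisors `D`), where the `H_b` (and the `H'_b`) have no common zero and the
hypersurfaces `g_i = 0` of `F` are smooth: the fixed divisors of the `S b ∘ ι` and of the `S' b ∘ ι`
are locally `∑ a_i {g_i = 0}` and `∑ a'_i {g_i = 0}`, the moving parts are generated by the `H_b` and
`H'_b`.  Moreover each hypersurface `g_i = 0` is contracted by the map `[H_b H'_c]` (with tangent
vectors satisfying `R`), or this map has rank less than `ν` on it, and the map `[S_b S'_c] ∘ ι` has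
rank at least `ν` at some point (`d = dim F`). -/
def FixIs (d ν m m' : ℕ) (k k' : Set X → ℕ) (ι : F → X) {N N' : ℕ} (S : Fin N → X → ℂ)
    (S' : Fin N' → X → ℂ) (R : F → E₀ → Prop) : Prop :=
  HasRank E₀ ν (k + k') ι (prodF S S') ∧
    ∀ x : F, ∃ (T : Finset (Set X)) (e : Set X → X → ℂ) (r : ℕ) (g : Fin r → F → ℂ)
      (a a' : Fin r → ℕ) (H : Fin N → F → ℂ) (H' : Fin N' → F → ℂ),
      (∀ D, k D ≠ 0 ∨ k' D ≠ 0 → D ∈ T) ∧ (∀ D ∈ T, Eqn E D (e D) (ι x)) ∧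
      (∀ i, HolAt E₀ (g i) x ∧ NZ E₀ (g i) x) ∧ (∀ b, HolAt E₀ (H b) x) ∧
      (∀ b, HolAt E₀ (H' b) x) ∧ (∃ b, H b x ≠ 0) ∧ (∃ b, H' b x ≠ 0) ∧
      ∀ᶠ z in 𝓝 x, Fr E m k T e S g a H (ι x) (ι z) z ∧
        Fr E m' k' T e S' g a' H' (ι x) (ι z) z ∧
        ∀ i, g i z = 0 → DegAt E₀ d ν (g i) (prodF H H') (R z) z

/-- `S b` are sections of `m K_X + ∑ k(D) D`, `ι : F → X` is the immersion of a fibre, not contained in
the base locus.  Near every point of `F`, `S b = (∏ g_i ^ a_i) H_b` in a frame of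
`m K_X + ∑ k(D) D` (`e D` are local equations of the divisors `D`), where the `H_b` have no common
zero and the hypersurfaces `g_i = 0` of `X` are transversal to `F`: the fixed divisor is locally
`∑ a_i {g_i = 0}`.  Moreover `g_i = 0` is covered by rational curves contracted by `[H]`, with tangent
vectors satisfying `R`. -/
def RatIs (m : ℕ) (k : Set X → ℕ) (Δ : Set X → ℝ) (ι : F → X) {N : ℕ} (S : Fin N → X → ℂ)
    (R : X → E → Prop) : Prop :=
  (∃ t, (∀ D, k D ≠ 0 → ι t ∉ D) ∧ ∃ b, S b (ι t) ≠ 0) ∧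
    ∀ t : F, ∃ (T : Finset (Set X)) (e : Set X → X → ℂ) (r : ℕ) (g : Fin r → X → ℂ)
      (a : Fin r → ℕ) (H : Fin N → X → ℂ),
      (∀ D, k D ≠ 0 → D ∈ T) ∧ (∀ D ∈ T, Eqn E D (e D) (ι t)) ∧
      (∀ i, HolAt E (g i) (ι t) ∧ NZ E₀ (fun s => g i (ι s)) t) ∧
      (∀ b, HolAt E (H b) (ι t)) ∧ (∃ b, H b (ι t) ≠ 0) ∧
      ∀ᶠ z in 𝓝 (ι t), Fr E m k T e S g a H (ι t) z z ∧
        ∀ i, g i z = 0 → ∃ᶠ z' in 𝓝 z, g i z' = 0 ∧ ∃ (q : ℕ) (c c' : ℂ × Cm q → X),
          RatAt E (Cm q) Δ (g i) (fun v => PKer E H z' v ∧ R z' v) z' c c'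

/-- At the points of the fibre `ι : F → X`, `VolIs` for some `g`, `a`, the hypersurfaces `g_i = 0` are
transversal to `F`, and each of them is covered by rational curves with tangent vectors satisfying `A`
and `B`; or its points `ι s` are limits of points `ι s'` of this hypersurface where it is contracted by
`(A, B)` and `rk` holds, or the hypersurface `g_i ∘ ι = 0` of `F` is contracted by `(A', B')`, or `A'`
has rank less than `νF` on it (`d = dim F`). -/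
def VolF (d νF m : ℕ) (k : Set X → ℕ) (Δ : Set X → ℝ) (W : X → ℝ) (Q : X → (X → ℝ) → Prop)
    (A B : X → E → Prop) (rk : X → Prop) (ι : F → X) (A' B' : F → E₀ → Prop) : Prop :=
  ∀ t, ∃ (r : ℕ) (g : Fin r → X → ℂ) (a : Fin r → ℕ), VolIs E m k W (Q (ι t)) (ι t) g a ∧
    (∀ l, NZ E₀ (fun s => g l (ι s)) t) ∧ ∀ l,
      (∀ᶠ z in 𝓝 (ι t), g l z = 0 → ∃ᶠ z' in 𝓝 z, g l z' = 0 ∧ ∃ (q : ℕ) (c c' : ℂ × Cm q → X),
        RatAt E (Cm q) Δ (g l) (fun v => B z' v ∧ A z' v) z' c c') ∨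
      ∀ᶠ s in 𝓝 t, g l (ι s) = 0 →
        (∃ᶠ s' in 𝓝 s, g l (ι s') = 0 ∧
          (∃ w, w ≠ 0 ∧ dv E (g l) (ι s') w = 0 ∧ B (ι s') w ∧ A (ι s') w) ∧ rk (ι s')) ∨
        Deg E₀ d νF (fun w => dv E₀ (fun s => g l (ι s)) s w = 0) (A' s) (B' s)

/-- The divisors and sections of `HasGood`: `Δ₀ ≤ Δ` (for instance, `Δ₀ = Δ`), `k = m Δ₀`,
`k' = m' (Δ₀ + t (Δ - Δ₀))`, and `S b`, `S' b` are sections of `m (K_X + Δ₀)` and
`m' (K_X + Δ₀ + t (Δ - Δ₀))`. -/
def IsSys (Δ Δ₀ : Set X → ℝ) (t : ℝ) (m m' : ℕ) (k k' : Set X → ℕ) {N N' : ℕ} (S : Fin N → X → ℂ)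
    (S' : Fin N' → X → ℂ) : Prop :=
  (∀ D, Δ₀ D ≤ Δ D ∧ k D = m * Δ₀ D ∧ k' D = m' * (Δ₀ D + t * (Δ D - Δ₀ D))) ∧
  0 < t ∧ t ≤ 1 ∧ 0 < m ∧ 0 < m' ∧
  (∀ b, IsSection E (fun D x g => Eqn E D g x) m k (S b)) ∧
  ∀ b, IsSection E (fun D x g => Eqn E D g x) m' k' (S' b)

/-- `X`, `Z`, `Y`, `F` are complex manifolds, `Δ` is a rational SNC boundary of `X`, `f : X ⇢ Y` is a
meromorphic map, holomorphic on the open subset `j : Z → X` whose complement has codimension at least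
`2`, and `i : F → Z` is a smooth fibre of `f : Z → Y`, not contained in the components of `Δ`. -/
def Setup (Δ : Set X → ℝ) (j : Z → X) (f : Z → Y) (i : F → Z) : Prop :=
  IsManifold 𝓘(ℂ, E) ω X ∧ IsManifold 𝓘(ℂ, E) ω Z ∧ IsManifold 𝓘(ℂ, E') ω Y ∧
    IsManifold 𝓘(ℂ, E₀) ω F ∧ IsSNC E Δ ∧ BigOpen E j ∧ ContMDiff 𝓘(ℂ, E) 𝓘(ℂ, E') ω f ∧
    SmoothFibre E E' E₀ f i ∧ ∀ D, Δ D ≠ 0 → ∃ t, j (i t) ∉ D

/-- `Δ' = Δ|_Z` is an SNC boundary. -/
def IsRestr (Δ : Set X → ℝ) (j : Z → X) (Δ' : Set Z → ℝ) : Prop :=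
  IsSNC E Δ' ∧ (∀ D, Δ D ≠ 0 → Δ' (j ⁻¹' D) = Δ D) ∧
    ∀ D', Δ' D' ≠ 0 → ∃ D, Δ D ≠ 0 ∧ D' = j ⁻¹' D

/-- `f : (X, Δ) → (Y, Γ)` is a morphism of orbifolds in codimension one: if `f^* G` is `κ {e = 0}` near
a point `x` of the smooth hypersurface `e = 0`, and `δ` is the sum of the coefficients of the
components of `Δ` through `x`, then `1 - δ ≤ κ (1 - Γ(G))`. -/
def OrbMor (f : X → Y) (Δ : Set X → ℝ) (Γ : Set Y → ℝ) : Prop :=
  ∀ (x : X) (G : Set Y) (g : Y → ℂ) (e w : X → ℂ) (κ : ℕ), Γ G ≠ 0 → Eqn E' G g (f x) →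
    HolAt E e x → e x = 0 → dif E e x ≠ 0 → HolAt E w x → w x ≠ 0 → 0 < κ →
    (∀ᶠ z in 𝓝 x, g (f z) = e z ^ κ * w z) → 1 - ∑ᶠ (D : Set X) (_ : x ∈ D), Δ D ≤ κ * (1 - Γ G)

/-- The supremum of the `l` such that, for some `m > 0`, there are meromorphic sections
`σ_0, ..., σ_l` of `m K_Y`, whose pull-backs to `X` have poles `≤ m Δ`, for which the map
`(σ_1 / σ_0, ..., σ_l / σ_0)` is submersive somewhere. -/
def kodG (Δ : Set X → ℝ) (j : Z → X) (f : Z → Y) {T : ℕ → Type} (c : ∀ m, X → Z → T m → ℂ) :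
    WithBot ℕ∞ :=
  ⨆ (l : ℕ) (_ : ∃ (m : ℕ) (K : Set X → ℕ) (𝒢 : Set (Set Y)) (σ : ℕ → Y → ℂ) (y : Y), 0 < m ∧
    (∀ D, (K D : ℝ) ≤ m * Δ D) ∧ 𝒢.Finite ∧ (∀ G ∈ 𝒢, IsPrime E' G) ∧
    (∀ b, PullSec E E' m K 𝒢 j f (c m) (σ b)) ∧ (∀ G ∈ 𝒢, y ∉ G) ∧ Indep E' σ l y),
    (l : WithBot ℕ∞)

variable {X' Y' : Type} [TopologicalSpace X'] [ChartedSpace E X'] [TopologicalSpace Y']
  [ChartedSpace E' Y']

/-- There is a commutative square `f ∘ u = v ∘ f'`, where `f` and `f'` are holomorphic,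
`u : X' → X` and `v : Y' → Y` are proper and bimeromorphic, `Δ` and `Δ'` are rational SNC boundaries,
`u_* Δ' = Δ`, and `u : (X', Δ') → (X, Δ)` is a morphism of orbifolds in codimension one. -/
def IsStep (f' : X' → Y') (Δ' : Set X' → ℝ) (f : X → Y) (Δ : Set X → ℝ) : Prop :=
  ∃ (u : X' → X) (v : Y' → Y), IsModif E u ∧ IsModif E' v ∧ (∀ x, f (u x) = v (f' x)) ∧
    ContMDiff 𝓘(ℂ, E) 𝓘(ℂ, E') ω f ∧ ContMDiff 𝓘(ℂ, E) 𝓘(ℂ, E') ω f' ∧ IsSNC E Δ ∧ IsSNC E Δ' ∧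
    (∀ D, IsPrime E D → IsPrime E (u '' D) → Δ' D = Δ (u '' D)) ∧ OrbMor E E u Δ' Δ

end Two

section Fib

variable (E E' : Type) [NormedAddCommGroup E] [NormedSpace ℂ E] [NormedAddCommGroup E']
  [NormedSpace ℂ E']

/-- `f : (X, Δ) → Y` (in a chain of length `≥ 1`, `f` is a holomorphic map of complex manifolds and `Δ`
is a rational SNC boundary, by `IsStep`). -/
structure Fib : Type 1 where
  X : Type
  Y : Type
  tX : TopologicalSpace X
  tY : TopologicalSpace Y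
  cX : ChartedSpace E X
  cY : ChartedSpace E' Y
  f : X → Y
  Δ : Set X → ℝ

attribute [local instance] Fib.tX Fib.tY Fib.cX Fib.cY

/-- `f' : (X', Δ') → Y'` is linked to `f : (X, Δ) → Y` by a chain of commutative squares (either
direction). -/
def Linked (M M' : Fib E E') : Prop :=
  Relation.EqvGen (fun A B : Fib E E' => IsStep E E' A.f A.Δ B.f B.Δ) M M'

/-- Campana's orbifold base dimension `κ(f | Δ) = inf κ(Y', K_{Y'} + B(f', Δ'))`, where
`f' : (X', Δ') → Y'` is linked to `f : (X, Δ) → Y`. -/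
def kap (M : Fib E E') : WithBot ℕ∞ :=
  ⨅ (M' : Fib E E') (_ : Linked E E' M M'), kodX E' (base E E' M'.f M'.Δ)

/-- Let `Γ` be a rational boundary of `Y`, with simple normal crossings (for instance, everywhere, or)
at the images of the general points of `f⁻¹(Γ)`, and suppose that `f : (Z, Δ|_Z) → (Y, Γ)` is a
morphism of orbifolds in codimension one.  Then `κ(Y, K_Y + Γ) ≤ c`; and if, moreover, `Γ = B(f', Δ')`
for some `f' : (X', Δ') → Y` linked to `f₀ : (X₀, Δ₀) → Y₀` (for instance, `f'` is a neat model of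
`f₀ : (X, Δ) → Y₀`), then `κ(f₀ | Δ₀) ≤ c`. -/
def OrbLe {X Z Y : Type} [TopologicalSpace X] [TopologicalSpace Z] [tY : TopologicalSpace Y]
    [ChartedSpace E X] [ChartedSpace E Z] [cY : ChartedSpace E' Y] (Δ : Set X → ℝ) (j : Z → X)
    (f : Z → Y) (c : WithBot ℕ∞) : Prop :=
  ∀ (Δ₁ : Set Z → ℝ) (Γ : Set Y → ℝ), IsRestr E Δ j Δ₁ → IsBdry E' Γ →
    (∀ z G, Γ G ≠ 0 → f z ∈ G →
      z ∈ closure {z' | (∃ G, Γ G ≠ 0 ∧ f z' ∈ G) ∧ ∀ᶠ y in 𝓝 (f z'), SNCAt E' Γ y}) →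
    OrbMor E E' f Δ₁ Γ → kodX E' Γ ≤ c ∧
      ∀ (M₀ : Fib E E') (X' : Type) (tX : TopologicalSpace X') (cX : ChartedSpace E X')
        (f' : X' → Y) (Δ' : Set X' → ℝ), Linked E E' M₀ ⟨X', Y, tX, tY, cX, cY, f', Δ'⟩ →
        Γ = base E E' f' Δ' → kap E E' M₀ ≤ c

end Fib

/-! ### forms on manifolds modelled on `ℂⁿ` -/

/-- Charts (local holomorphic coordinate systems) of `X`. -/
abbrev Chart (n : ℕ) (X : Type) [TopologicalSpace X] := OpenPartialHomeomorph X (Cm n)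

/-- Coefficient matrices, in the charts of `X`, of forms of type `(1, 1)`. -/
abbrev Form (n : ℕ) (X : Type) [TopologicalSpace X] :=
  Chart n X → Cm n → Matrix (Fin n) (Fin n) ℂ

/-- The derivative of `f` at `z` in the direction `v`. -/
def D1 (E : Type) [NormedAddCommGroup E] [NormedSpace ℝ E] (f : E → ℂ) (z v : E) : ℂ :=
  fderiv ℝ f z v

/-- `f` is smooth near `z`. -/
def Sm (E V : Type) [NormedAddCommGroup E] [NormedSpace ℝ E] [NormedAddCommGroup V]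
    [NormedSpace ℝ V] (f : E → V) (z : E) : Prop := ContDiffAt ℝ ∞ f z

/-- `∂f/∂z_j = (∂f/∂x_j - i ∂f/∂y_j)/2` at `z`. -/
def dz {n : ℕ} (j : Fin n) (f : Cm n → ℂ) (z : Cm n) : ℂ :=
  (D1 _ f z (Pi.single j 1) - Complex.I * D1 _ f z (Pi.single j Complex.I)) / 2

/-- `∂f/∂z̄_j = (∂f/∂x_j + i ∂f/∂y_j)/2` at `z`. -/
def dzb {n : ℕ} (j : Fin n) (f : Cm n → ℂ) (z : Cm n) : ℂ :=
  (D1 _ f z (Pi.single j 1) + Complex.I * D1 _ f z (Pi.single j Complex.I)) / 2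

/-- The complex Hessian `(∂²f/∂z_j∂z̄_k)` of a real function, the coefficient matrix of `i∂∂̄f`. -/
def cHess {n : ℕ} (f : Cm n → ℝ) (z : Cm n) : Matrix (Fin n) (Fin n) ℂ :=
  Matrix.of fun j k => dz j (dzb k fun y => (f y : ℂ)) z

/-- `w` belongs to the kernel of the Hermitian form with matrix `A`. -/
def InKer {n : ℕ} (A : Matrix (Fin n) (Fin n) ℂ) (w : Cm n) : Prop := ∀ j, ∑ i, w i * A i j = 0

/-- `J^T A J̄`. -/
def cj {n d : ℕ} (J : Matrix (Fin n) (Fin d) ℂ) (A : Matrix (Fin n) (Fin n) ℂ) :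
    Matrix (Fin d) (Fin d) ℂ := J.transpose * A * J.map (starRingEnd ℂ)

section Three

variable {n d p : ℕ} {X F : Type} [TopologicalSpace X] [TopologicalSpace F]

/-- The coordinates of the point `x` in the chart `e`. -/
abbrev co (e : Chart n X) (x : X) : Cm n := e x

/-- The point with coordinates `z` in the chart `e`. -/
abbrev pt (e : Chart n X) (z : Cm n) : X := e.symm z

/-- The Jacobian matrix at `t` of the map `ι : F → X` in the charts `e` and `e'`. -/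
def jacM (ι : F → X) (e : Chart d F) (e' : Chart n X) (t : F) : Matrix (Fin n) (Fin d) ℂ :=
  Matrix.of fun p i => dz i (fun z => co e' (ι (pt e z)) p) (co e t)

variable [Mfd n X] [Mfd d F]

/-- The chart of `X` at `x`. -/
abbrev ch (x : X) : Chart n X := chartAt (Cm n) x

/-- `e` is a chart of the atlas of `X` and is defined at `x`. -/
def At (e : Chart n X) (x : X) : Prop := e ∈ atlas (Cm n) X ∧ x ∈ e.source

/-- The matrix of the form `A` at the point `x`, in the chart of `X` at `x`. -/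
def atx (A : Form n X) (x : X) : Matrix (Fin n) (Fin n) ℂ :=
  A (ch x) (co (ch x) x)

/-- `A` is a smooth closed real `(1,1)`-form on `X`. -/
def IsClosed11 (A : Form n X) : Prop :=
  (∀ e x, At e x → (∀ i j, Sm _ _ (fun z => A e z i j) (co e x)) ∧ (A e (co e x)).IsHermitian ∧
    ∀ i j k, dz k (fun z => A e z i j) (co e x) = dz i (fun z => A e z k j) (co e x)) ∧
  ∀ e e' x, At e x → At e' x → A e (co e x) = cj (jacM id e e' x) (A e' (co e' x))

/-- `A` is a smooth closed semipositive `(1,1)`-form on `X`. -/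
def IsSemiPos (A : Form n X) : Prop := IsClosed11 A ∧ ∀ e x, At e x → (A e (co e x)).PosSemidef

/-- `A` is a Kähler form on `X`. -/
def IsKahler (A : Form n X) : Prop := IsSemiPos A ∧ ∀ e x, At e x → (A e (co e x)).PosDef

/-- `A` is a smooth closed semipositive `(1,1)`-form on `X`, which is positive definite at the points
of a dense set (for instance, the pull-back of a Kähler metric by a bimeromorphic holomorphic
map). -/
def IsSemiKahler (A : Form n X) : Prop := IsSemiPos A ∧ Dense {x | (atx A x).PosDef}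

/-- The pull-back of the form `A` by `ι`. -/
def pull (ι : F → X) (A : Form n X) : Form d F := fun e z =>
  cj (jacM ι e (ch (ι (pt e z))) (pt e z)) (atx A (ι (pt e z)))

/-- `(S, S')` is a good system for `(X, Δ)` (`ι = id`), or for the fibre `ι : F → X`: the components of
the fixed divisors are contracted by `([H_b H'_c], β)`, or the map `[H_b H'_c]` has rank less than `ν`
on them, where `β ≥ 0` is a closed form, `β > 0` on a dense set, and the map `[S_b S'_c] ∘ ι` has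
rank at least `ν` at some point. -/
def GoodFix (n d m m' : ℕ) [Mfd n X] [Mfd d F] (k k' : Set X → ℕ)
    (ι : F → X) {N N' : ℕ} (S : Fin N → X → ℂ) (S' : Fin N' → X → ℂ) : Prop :=
  ∃ (ν : ℕ) (β : Form d F), IsSemiKahler β ∧
    FixIs (Cm n) (Cm d) d ν m m' k k' ι S S' fun z => InKer (atx β z)

/-- The transversal rational curve condition for the fibre `ι : F → X` and the sections `S b` of
`m K_X + ∑ k(D) D`, with a closed form `β ≥ 0` on `X`, `β > 0` at the points of dense subsets of `X`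
and of `F`. -/
def RatFix (n d m : ℕ) [Mfd n X] [Mfd d F] (k : Set X → ℕ)
    (Δ : Set X → ℝ) (ι : F → X) {N : ℕ} (S : Fin N → X → ℂ) : Prop :=
  ∃ β : Form n X, IsSemiKahler β ∧ Dense {t | (atx β (ι t)).PosDef} ∧
    RatIs (Cm n) (Cm d) m k Δ ι S fun z => InKer (atx β z)

/-- `(X, Δ)` and `(F, Δ|_F)` have good minimal models, or `(X, Δ)` has a good minimal model and
the fixed divisor is transversal to `F` and covered by rational curves. -/
def HasGood (n d : ℕ) [Mfd n X] [Mfd d F] (Δ : Set X → ℝ)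
    (ι : F → X) : Prop :=
  ∃ (Δ₀ : Set X → ℝ) (t : ℝ) (m m' N N' : ℕ) (k k' : Set X → ℕ) (S : Fin N → X → ℂ)
    (S' : Fin N' → X → ℂ), IsSys (Cm n) Δ Δ₀ t m m' k k' S S' ∧ GoodFix n n m m' k k' id S S' ∧
    (GoodFix n d m m' k k' ι S S' ∨ RatFix n d (m + m') (k + k') Δ ι (prodF S S'))

/-- The form `0`. -/
abbrev zero : Form n X := fun _ _ => 0

/-- `u` is smooth near `x` and `i∂∂̄ u = θ - α` near `x`. -/
def Pot (θ α : Form n X) (x : X) (u : X → ℝ) : Prop :=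
  (∀ c : Chart n X, At c x → Sm _ _ (fun z => u (pt c z)) (co c x)) ∧
    ∀ᶠ z in 𝓝 x, ∀ c : Chart n X, At c z →
      θ c (co c z) - α c (co c z) = cHess (fun w => u (pt c w)) (co c z)

/-- `θ` is a positive multiple of the pull-back of the Fubini-Study form by the holomorphic map
`X → ℙ` with homogeneous coordinates `Q z b`: near each point, these are proportional to holomorphic
functions `H b` without common zero, and `θ = c₀ i∂∂̄ log ∑ |H_b|²`. -/
def IsFS {N : ℕ} (Q : X → Fin N → ℂ) (θ : Form n X) : Prop :=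
  ∃ c₀ : ℝ, 0 < c₀ ∧ ∀ x, ∃ H : Fin N → X → ℂ, (∀ b, HolAt (Cm n) (H b) x) ∧ (∃ b, H b x ≠ 0) ∧
    ∀ᶠ z in 𝓝 x, (∃ c : ℂ, c ≠ 0 ∧ ∀ b, Q z b = c * H b z) ∧ ∀ e : Chart n X, At e z →
      θ e (co e z) = (c₀ : ℂ) • cHess (fun w => Real.log (∑ b, ‖H b (pt e w)‖ ^ 2)) (co e z)

/-- `m (K_X + Δ)` is numerically `m (θ - α) + N`, where `θ` is a closed semipositive form, of rank `ν`
on a dense set, and of rank at least `νF` at some point of the fibre `ι : F → X`, and the components of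
`N` are contracted by `(θ, β)`, or `θ` has rank less than `ν` on them; `β ≥ 0` is a closed form,
`β > 0` on a dense set. -/
def IsDec (n d m ν νF : ℕ) [Mfd n X] [Mfd d F] (Δ : Set X → ℝ)
    (ι : F → X) (k : Set X → ℕ) (α β θ : Form n X) (W : X → ℝ) : Prop :=
  0 < m ∧ (∀ D, k D = m * Δ D) ∧ IsSemiKahler β ∧ IsSemiPos θ ∧ (∀ x, (atx θ x).rank ≤ ν) ∧
    Dense {x | (atx θ x).rank = ν} ∧ (∃ t, νF ≤ (atx (pull (d := d) ι θ) t).rank) ∧
    VolX (Cm n) n ν m k W (Pot θ α) (fun z => InKer (atx θ z)) fun z => InKer (atx β z)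

/-- `N` is transversal to the fibre `ι : F → X`, `β > 0` at the points of a dense subset of `F`, and
each component of `N` is covered by rational curves contracted by `(θ, β)`; or it is contracted by
`(θ, β)` at points close to those of `F` satisfying `rk`; or its restriction to `F` is contracted by the
restrictions of `(θ, β)`; or the restriction of `θ` has rank less than `νF` on it. -/
def FibDec (n d m νF : ℕ) [Mfd n X] [Mfd d F] (Δ : Set X → ℝ)
    (ι : F → X) (k : Set X → ℕ) (α β θ : Form n X) (W : X → ℝ) (rk : X → Prop) : Prop :=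
  Dense {t | (atx (pull (d := d) ι β) t).PosDef} ∧
    VolF (Cm n) (Cm d) d νF m k Δ W (Pot θ α) (fun z => InKer (atx θ z)) (fun z => InKer (atx β z))
      rk ι (fun t => InKer (atx (pull ι θ) t)) fun t => InKer (atx (pull ι β) t)

/-- `m (K_X + Δ)` is numerically `m (θ - α) + N`, where `α > 0` on a dense set (on `X` and on the fibre
`ι : F → X`), the maximal rank `ν` of `θ` is less than `n`, and the coefficients of `Δ` are less than
`1`, or `θ` is the pull-back of a Fubini-Study form: `(X, Δ)` has a Mori fibre space. -/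
def HasMori (n d : ℕ) [Mfd n X] [Mfd d F] (Δ : Set X → ℝ)
    (ι : F → X) : Prop :=
  ∃ (m ν νF : ℕ) (k : Set X → ℕ) (α θ : Form n X) (W : X → ℝ),
    IsDec n d m ν νF Δ ι k α α θ W ∧ ν < n ∧
    ((∀ D, Δ D < 1) ∨ ∃ (N : ℕ) (Q : X → Fin N → ℂ), IsFS Q θ) ∧
    FibDec n d m νF Δ ι k α α θ W fun z => (∀ D, Δ D < 1) ∧ (atx θ z).rank = ν

/-- `m (K_X + Δ)` is numerically `m θ + N`; `a` is at most the maximal rank of the restriction of `θ` to
the fibre `ι : F → X`, or `a = κ(F, K_F + Δ|_F)` and this restriction has the same property on `F`. -/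
def HasNum (n d : ℕ) [Mfd n X] [Mfd d F] (Δ : Set X → ℝ)
    (ι : F → X) (ν : ℕ) (a : WithBot ℕ∞) : Prop :=
  ∃ (m νF : ℕ) (k : Set X → ℕ) (β θ : Form n X) (W : X → ℝ), IsDec n d m ν νF Δ ι k zero β θ W ∧
    (a = νF ∨ a = kodR (Cm n) (Cm d) ι Δ ∧ (∀ t, (atx (pull (d := d) ι θ) t).rank ≤ νF) ∧
      FibDec n d m νF Δ ι k zero β θ W fun _ => False)

/-- `A + s B` -/
def addS (A B : Form n X) (s : ℝ) : Form n X := fun e z => A e z + (s : ℂ) • B e z

/-- The closed form `θ` is nef (`χ` is a Kähler form): for all `ε > 0`, `θ + ε χ` is cohomologous to a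
semipositive form. -/
def IsNef (χ θ : Form n X) : Prop :=
  IsClosed11 θ ∧ ∀ ε : ℝ, 0 < ε → ∃ (A : Form n X) (ψ : X → ℝ), IsSemiPos A ∧
    ∀ x, Pot A (addS θ χ ε) x ψ

/-- `I` is, up to a constant, the integral of `A^n` over `X` (computed with any finite partition of
unity). -/
def IsVol (A : Form n X) (I : ℝ) : Prop :=
  ∀ (N : ℕ) (e : Fin N → Chart n X) (ρ : Fin N → X → ℝ), (∀ i, Continuous (ρ i)) →
    (∀ i, ∀ x ∈ tsupport (ρ i), At (e i) x) → (∀ x, ∑ i, ρ i x = 1) →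
    ∑ i, ∫ z in (e i).target, ρ i (pt (e i) z) * (A (e i) z).det.re = I

/-- `m (K_X + Δ)` is numerically `m θ + N`, `θ` is nef of numerical dimension `ν` (`∫ (β + s θ)^n` and
`∫ (χ + β + s θ)^n` grow like `s^ν`), and the components of `N` are contracted by `(θ, β)`; `a` is at
most the numerical dimension of the restriction of `θ` to the fibre `ι : F → X`, or
`a = κ(F, K_F + Δ|_F)` and this restriction has the property of `HasNum` (contracted components). -/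
def HasNef (n d : ℕ) [Mfd n X] [Mfd d F] (χ : Form n X) (Δ : Set X → ℝ) (ι : F → X) (ν : ℕ)
    (a : WithBot ℕ∞) : Prop :=
  ∃ (m : ℕ) (k : Set X → ℕ) (β θ : Form n X) (W : X → ℝ) (c C : ℝ), 0 < m ∧ (∀ D, k D = m * Δ D) ∧
    IsSemiKahler β ∧ IsNef χ θ ∧
    VolX (Cm n) n 0 m k W (Pot θ zero) (fun z => InKer (atx θ z)) (fun z => InKer (atx β z)) ∧
    Function.Injective ι ∧ 0 < c ∧ (∀ᶠ s : ℝ in atTop, ∃ I I' : ℝ, IsVol (addS β θ s) I ∧
      IsVol (addS (addS β θ s) χ 1) I' ∧ c * s ^ ν ≤ I ∧ I' ≤ C * s ^ ν) ∧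
    ((∃ b : ℕ, a = b ∧ ∀ᶠ s : ℝ in atTop, ∃ J, IsVol (addS (pull (d := d) ι β) (pull ι θ) s) J ∧
        c * s ^ b ≤ J) ∨
      a = kodR (Cm n) (Cm d) ι Δ ∧ FibDec n d m 0 Δ ι k zero β θ W fun _ => False)

/-- The coefficients of `f^*(dy_1 ∧ ... ∧ dy_p)^{⊗ m}` at `z ∈ Z`, in the chart of `X` at `x`, and
the chart of `Y` at `f z`: product of minors of order `p` of the matrix of `df`. -/
def minors (n p m : ℕ) {Y Z : Type} [TopologicalSpace Y] [TopologicalSpace Z]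
    [Mfd n X] [Mfd p Y] [Mfd n Z]
    (j : Z → X) (f : Z → Y) (x : X) (z : Z) (I : Fin m → Fin p → Fin n) : ℂ :=
  ∏ r, Matrix.det (Matrix.of fun a b : Fin p =>
    dch (Cm n) (Cm p) j f x z (Pi.single (I r b) 1) a)

/-- The dimension of the saturation of `f^* K_Y` in the orbifold tensors: the supremum of the `l` such
that, for some `m > 0`, there are meromorphic sections `σ_0, ..., σ_l` of `m K_Y`, whose pull-backs to
`X` are sections of `(Ω^p_X)^{⊗ m}` with poles `≤ m Δ`, for which the map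
`(σ_1 / σ_0, ..., σ_l / σ_0)` is submersive somewhere. -/
def kodF (n p : ℕ) {Y Z : Type} [TopologicalSpace Y] [TopologicalSpace Z]
    [Mfd n X] [Mfd p Y] [Mfd n Z]
    (Δ : Set X → ℝ) (j : Z → X) (f : Z → Y) : WithBot ℕ∞ :=
  kodG (Cm n) (Cm p) Δ j f fun m => minors n p m j f

end Three

end

end Vale.Agent.P281.FS
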