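import Vale.Agent.P281.H167.RC.Main
import Vale.Agent.P281.H716.S.Fin
import Vale.Agent.P281.H455.TL.Comp
import Vale.Agent.P281.H723.FS.Defs

/-! P281: the hypotheses of the final statement imply those of the theorems. -/

namespace Vale.Agent.P281.FS

open scoped Manifold ContDiff Topology ComplexOrder
open Filter Set

set_option linter.all false

variable {n d p : ℕ} {X Y Z F : Type} [TopologicalSpace X] [TopologicalSpace Y]
  [TopologicalSpace Z] [TopologicalSpace F] [ChartedSpace (Cm n) X] [ChartedSpace (Cm n) Z]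
  [ChartedSpace (Cm p) Y] [ChartedSpace (Cm d) F]

theorem isKahler_of {A : Form n X} (h : IsKahler A) : Vale.Agent.P272.K.IsKahler A where
  smooth := fun e x hx i j => (h.1.1.1 e x hx).1 i j
  posDef := fun e x hx => h.2 e x hx
  change := fun e e' x hx hx' => h.1.1.2 e e' x hx hx'
  closed := fun e x hx i j k => (h.1.1.1 e x hx).2.2 i j k

theorem isSemiKahler_of {A : Form n X} (h : IsSemiKahler A) :
    Vale.Agent.P281.H167.IsSemiKahler A where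
  smooth := fun e x hx i j => (h.1.1.1 e x hx).1 i j
  posSemidef := fun e x hx => h.1.2 e x hx
  change := fun e e' x hx hx' => h.1.1.2 e e' x hx hx'
  closed := fun e x hx i j k => (h.1.1.1 e x hx).2.2 i j k
  dense := h.2.mono fun x hx => ⟨chartAt (Cm n) x, ⟨chart_mem_atlas _ x, mem_chart_source _ x⟩, hx⟩

theorem eqn_iff {D : Set X} {g : X → ℂ} {x : X} :
    Eqn (Cm n) D g x ↔ J.IsLocalEq (Cm n) D g x := Iff.rfl

theorem isSNC_of {Δ : Set X → ℝ} (h : IsSNC (Cm n) Δ) : J.IsSNC (Cm n) Δ :=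
  ⟨h.1.1, h.1.2.1, h.1.2.2, h.2⟩

theorem isSection_iff {m : ℕ} {k : Set X → ℕ} {s : X → ℂ} :
    IsSection (Cm n) (fun D x g => Eqn (Cm n) D g x) m k s ↔
      J.IsSection (Cm n) (fun (D : Set X) z g => J.IsLocalEq (Cm n) D g z) m k s := Iff.rfl

theorem kodX_eq {Δ : Set X → ℝ} :
    kodX (Cm n) Δ = J.kod (Cm n) (fun (D : Set X) x g => J.IsLocalEq (Cm n) D g x) Δ := rfl

theorem kodR_eq {ι : F → X} {Δ : Set X → ℝ} : kodR (Cm n) (Cm d) ι Δ =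
    J.kod (Cm d) (fun (D : Set X) t g => ∃ e, J.IsLocalEq (Cm n) D e (ι t) ∧
      ∀ᶠ t' in 𝓝 t, g t' = e (ι t')) Δ := rfl

theorem base_eq {f : X → Y} {Δ : Set X → ℝ} :
    base (Cm n) (Cm p) f Δ = J.orbBase' (Cm n) (Cm p) f Δ := rfl

theorem bigOpen_iff {j : Z → X} : BigOpen (Cm n) j ↔ J.IsBigOpen (Cm n) j := Iff.rfl

theorem smoothFibre_of {f : Z → Y} {i : F → Z} (h : SmoothFibre (Cm n) (Cm p) (Cm d) f i) :
    H713.IsSmoothFibre (Cm n) (Cm p) (Cm d) f i :=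
  ⟨h.1, h.2.1, h.2.2.1, h.2.2.2⟩

theorem pullSec_iff {m : ℕ} {K : Set X → ℕ} {𝒢 : Set (Set Y)} {j : Z → X} {f : Z → Y} {σ : Y → ℂ} :
    PullSec (Cm n) (Cm p) m K 𝒢 j f (minors n p m j f) σ ↔
      H713.TL.IsPullSection (n := n) (p := p) m K 𝒢 j f σ :=
  ⟨fun h => ⟨h.1, h.2⟩, fun h => ⟨h.mero, h.pole⟩⟩

theorem kodF_eq {Δ : Set X → ℝ} {j : Z → X} {f : Z → Y} :
    kodF n p Δ j f = H713.TL.kodF (n := n) (p := p) Δ j f := by
  have h1 : kodF n p Δ j f = ⨆ (l : ℕ) (_ : ∃ (m : ℕ) (K : Set X → ℕ) (𝒢 : Set (Set Y))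
    (σ : ℕ → Y → ℂ) (y : Y), 0 < m ∧
    (∀ D, (K D : ℝ) ≤ m * Δ D) ∧ 𝒢.Finite ∧ (∀ G ∈ 𝒢, J.IsPrime (Cm p) G) ∧
    (∀ b, PullSec (Cm n) (Cm p) m K 𝒢 j f (minors n p m j f) (σ b)) ∧ (∀ G ∈ 𝒢, y ∉ G) ∧ σ 0 y ≠ 0 ∧
    Function.Surjective fun (ξ : Cm p) (b : Fin l) =>
      J.dif (Cm p) (fun w => σ (b + 1) w / σ 0 w) y ξ),
    (l : WithBot ℕ∞) := rfl
  rw [h1]
  simp only [pullSec_iff]
  rfl

theorem goodFix_of {m m' : ℕ} {k k' : Set X → ℕ} {ι : F → X} {N N' : ℕ} {S : Fin N → X → ℂ}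
    {S' : Fin N' → X → ℂ} (h : GoodFix n d m m' k k' ι S S') :
    Vale.Agent.P281.S.HasGoodFix n d m m' k k' ι S S' := by
  obtain ⟨ν, β, hβ, hr, h⟩ := h
  exact ⟨ν, β, isSemiKahler_of hβ, hr, h⟩

theorem ratCurve_of {q : ℕ} {Δ : Set X → ℝ} {c c' : ℂ × Cm q → X}
    (h : RatCurve (Cm n) (Cm q) Δ c c') : H167.IsRatCurve n q Δ c c' :=
  ⟨h.1, h.2.1, h.2.2.1, h.2.2.2⟩

theorem ratFix_of {m : ℕ} {k : Set X → ℕ} {Δ : Set X → ℝ} {ι : F → X} {N : ℕ}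
    {S : Fin N → X → ℂ} (h : RatFix n d m k Δ ι S) :
    ∃ β : Form n X, H167.IsSemiKahler β ∧ H167.IsRatFix n d m k Δ ι S β := by
  obtain ⟨β, hβ, hd, hne, h⟩ := h
  refine ⟨β, isSemiKahler_of hβ, hne, hd.mono fun t ht => ⟨chartAt (Cm n) (ι t),
    ⟨chart_mem_atlas _ _, mem_chart_source _ _⟩, ht⟩, fun t => ?_⟩
  obtain ⟨T, e, r, g, a, H, k1, k2, k3, k4, k5, k6⟩ := h t
  refine ⟨T, e, r, g, a, H, k1, k2, k3, k4, k5, ?_⟩
  filter_upwards [k6] with z hz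
  refine ⟨hz.1, fun i hi => (hz.2 i hi).mono fun z' hz' => ⟨hz'.1, ?_⟩⟩
  obtain ⟨q, c, c', v, h1, h2, h3, h4, h5, h6, h7, h8, h9⟩ := hz'.2
  exact ⟨q, c, c', v, ratCurve_of h1, h2, h3, h4, h5, h6, h7, h8, h9⟩

end Vale.Agent.P281.FS
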