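import Vale.Agent.P281.H723.FS.Conv
import Vale.Agent.P281.H368.MFS.Defs
import Vale.Agent.P281.H167.ML.Iface

/-! P281: the hypotheses of the final statement imply those of theorem MFS. -/

namespace Vale.Agent.P281.FS

open scoped Manifold ContDiff Topology ComplexOrder
open Filter Set

set_option linter.all false

variable {n d p : ℕ} {X Y Z F : Type} [TopologicalSpace X] [TopologicalSpace Y]
  [TopologicalSpace Z] [TopologicalSpace F] [ChartedSpace (Cm n) X] [ChartedSpace (Cm n) Z]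
  [ChartedSpace (Cm p) Y] [ChartedSpace (Cm d) F]

theorem isSemiPos_of {A : Form n X} (h : IsSemiPos A) : H368.MFS.IsSemiPos A where
  smooth := fun e x hx i j => (h.1.1 e x hx).1 i j
  posSemidef := fun e x hx => h.2 e x hx
  change := fun e e' x hx hx' => h.1.2 e e' x hx hx'
  closed := fun e x hx i j k => (h.1.1 e x hx).2.2 i j k

theorem at_chart (x : X) : At (n := n) (chartAt (Cm n) x) x :=
  ⟨chart_mem_atlas _ x, mem_chart_source _ x⟩

theorem rank_le {A : Form n X} (h : IsSemiPos A) {ν : ℕ} (hν : ∀ x, (atx A x).rank ≤ ν)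
    (e : Chart n X) (x : X) (hx : At e x) : (A e (e x)).rank ≤ ν := by
  rw [h.1.2 e _ x hx (at_chart x)]
  refine le_trans (Matrix.rank_mul_le_left _ _) (le_trans (Matrix.rank_mul_le_right _ _) (hν x))

theorem pull_eq (ι : F → X) (A : Form n X) (t : F) :
    H368.MFS.pull ι A (chartAt (Cm d) t) (chartAt (Cm d) t t) = atx (pull ι A) t := rfl

theorem deg_of {g : X → ℂ} {α θ : Form n X} {ν : ℕ} {z : X}
    (h : Deg (Cm n) n ν (fun w => dv (Cm n) g z w = 0) (InKer (atx θ z)) (InKer (atx α z))) :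
    H368.MFS.ConAt n g α θ z ∨ H368.MFS.SmallAt n ν g θ z := by
  rcases h with ⟨w, h0, h1, h2, h3⟩ | h
  · exact Or.inl ⟨w, h0, h1, h3, h2⟩
  · exact Or.inr h

theorem volLoc_of {m : ℕ} {k : Set X → ℕ} {W : X → ℝ} {α θ : Form n X} {x : X} {r : ℕ}
    {g : Fin r → X → ℂ} {a : Fin r → ℕ} (h : VolIs (Cm n) m k W (Pot θ α x) x g a) :
    H368.MFS.VolLoc n m (fun (D : Set X) z g => J.IsLocalEq (Cm n) D g z) k W α θ x g a := by
  obtain ⟨h1, T, e, u, h2, h3, ⟨h4, h5⟩, h6⟩ := h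
  refine ⟨h1, T, e, u, h2, h3, h4, ?_⟩
  filter_upwards [h5, h6] with z hz hz'
  exact ⟨hz, hz'⟩

theorem ratAtM_of {Δ : Set X → ℝ} {g : X → ℂ} {α θ : Form n X} {x : X} {q : ℕ}
    {c c' : ℂ × Cm q → X}
    (h : RatAt (Cm n) (Cm q) Δ g (fun v => InKer (atx α x) v ∧ InKer (atx θ x) v) x c c') :
    H167.ML.RatAtM n Δ g α θ x := by
  obtain ⟨v, h1, h2, h3, h4, h5, h6, h7, h8, h9⟩ := h
  exact ⟨q, c, c', v, ratCurve_of h1, h2, h3, h4, h5, h6, h7, h8, h9⟩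

theorem isFS_of {N : ℕ} {Q : X → Fin N → ℂ} {θ : Form n X} (h : IsFS Q θ) :
    H167.ML.IsFS Q θ := by
  obtain ⟨c₀, hc₀, h⟩ := h
  refine ⟨c₀, hc₀, fun x => ?_⟩
  obtain ⟨H, h1, h2, h3⟩ := h x
  exact ⟨H, ⟨h1, h2, h3.mono fun z hz => hz.1⟩, h3.mono fun z hz => hz.2⟩

theorem mori_of (hM : H167.ML.MainPartML) {n p d : ℕ} (hn : n = p + d) {X Z Y F : Type}
    [TopologicalSpace X] [T2Space X] [CompactSpace X] [ConnectedSpace X] [ChartedSpace (Cm n) X]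
    [TopologicalSpace Z] [ChartedSpace (Cm n) Z]
    [TopologicalSpace Y] [T2Space Y] [ConnectedSpace Y] [ChartedSpace (Cm p) Y]
    [TopologicalSpace F] [T2Space F] [CompactSpace F] [ConnectedSpace F] [ChartedSpace (Cm d) F]
    (χ : Form n X) (hχ : IsKahler χ) (Δ : Set X → ℝ) (j : Z → X) (f : Z → Y) (i : F → Z)
    (hi : Setup (Cm n) (Cm p) (Cm d) Δ j f i) (h : HasMori n d Δ (fun t => j (i t))) :
    kodR (Cm n) (Cm d) (fun t => j (i t)) Δ + kodF n p Δ j f = ⊥ := by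
  obtain ⟨hX, hZ, hY, hF, hΔ, hj, hf, hi, hne⟩ := hi
  replace hΔ := isSNC_of hΔ
  haveI := hX
  haveI := hZ
  haveI := hY
  haveI := hF
  obtain ⟨m, ν, νF, k, α, θ, W, ⟨hm, hk, hα, hθ, hθν, hθd, ⟨t, ht⟩, hV⟩, hν, hFS, hαF, hVF⟩ := h
  rw [kodF_eq]
  refine hM n p d hn X Z Y F χ (isKahler_of hχ) Δ hΔ m hm k
    hk α θ (isSemiPos_of hα.1) (isSemiPos_of hθ)
    (hFS.imp id fun ⟨N, Q, hQ⟩ => ⟨N, Q, isFS_of hQ⟩) hα.2 ν hν
    (fun e x hx => rank_le hθ hθν e x hx) hθd W (fun x => ?_) j hj f hf i (smoothFibre_of hi) hne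
    ?_ νF ⟨t, ?_⟩ (fun t => ?_)
  · obtain ⟨r, g, a, h1, h2⟩ := hV x
    refine ⟨r, g, a, volLoc_of h1, ?_⟩
    filter_upwards [h2] with z hz i hi
    exact deg_of (hz i hi)
  · refine hαF.mono fun t ht => ?_
    show (H368.MFS.pull _ _ _ _).PosDef
    rw [pull_eq]
    exact ht
  · rw [pull_eq]
    exact ht
  · obtain ⟨r, g, a, h1, h2, h3⟩ := hVF t
    refine ⟨r, g, a, volLoc_of h1, h2, fun l => ?_⟩
    rcases h3 l with h3 | h3
    · refine Or.inl ?_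
      filter_upwards [h3] with z hz hz0
      refine (hz hz0).mono fun z' hz' => ⟨hz'.1, ?_⟩
      obtain ⟨q, c, c', hq⟩ := hz'.2
      exact ratAtM_of hq
    refine Or.inr ?_
    filter_upwards [h3] with s hs hl
    rcases hs hl with hs | ⟨w, h4, h5, h6, h7⟩ | hs
    · obtain ⟨s', hs'⟩ := hs.exists
      exact Or.inl ⟨hs'.2.2.1, hs.mono fun s' hs' => ⟨hs'.1, hs'.2.1, hs'.2.2.2⟩⟩
    · refine Or.inr (Or.inl ⟨w, h4, h5, ?_, ?_⟩)
      · rw [pull_eq]; exact h7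
      · rw [pull_eq]; exact h6
    · refine Or.inr (Or.inr ?_)
      obtain ⟨K, h8, h9⟩ := hs
      refine ⟨K, h8, fun w hw => ⟨(h9 w hw).1, ?_⟩⟩
      rw [pull_eq]
      exact (h9 w hw).2

end Vale.Agent.P281.FS
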