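import Vale.Agent.P281.H723.FS.ConvM
import Vale.Agent.P281.H342.NU.Stmt
import Vale.Agent.P281.H342.NU.R
import Vale.Agent.P281.H368.MFS.Iface

/-! P281: the hypotheses of the final statement imply those of theorem NU (helper716's conversion
file). -/

namespace Vale.Agent.P281.FS

open scoped Manifold ContDiff Topology ComplexOrder
open Filter Set MeasureTheory
open Vale.Agent.P272.K.INT (IsClosedForm intX)
open Vale.Agent.P281.H167.GM (addF)

set_option linter.all false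

variable {n d p : ℕ} {X Y Z F : Type} [TopologicalSpace X] [TopologicalSpace Y]
  [TopologicalSpace Z] [TopologicalSpace F] [ChartedSpace (Cm n) X] [ChartedSpace (Cm n) Z]
  [ChartedSpace (Cm p) Y] [ChartedSpace (Cm d) F]

theorem isClosedForm_of {A : Form n X} (h : IsClosed11 A) :
    IsClosedForm (n := n) (X := X) A where
  smooth := fun e x hx i j => (h.1 e x hx).1 i j
  form := fun e e' x hx hx' => h.2 e e' x hx hx'
  closed := fun e x hx i k l => (h.1 e x hx).2.2 k l i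

theorem isHerm_of {A : Form n X} (h : IsClosed11 A) :
    ∀ e x, At e x → (A e (e x)).IsHermitian := fun e x hx => (h.1 e x hx).2.1

theorem isNef_of {χ θ : Form n X} (h : IsNef χ θ) :
    Vale.Agent.P281.H342.NU.IsNef (n := n) (X := X) χ θ := by
  refine ⟨isClosedForm_of h.1, isHerm_of h.1, fun ε hε => ?_⟩
  obtain ⟨A, ψ, hA, hψ⟩ := h.2 ε hε
  refine ⟨ψ, fun e x hx => (hψ x).1 e hx, fun e x hx => ?_⟩
  have h1 := (hψ x).2.self_of_nhds e hx
  have h2 := hA.2 e x hx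
  have h3 : A e (e x) = θ e (e x) + Vale.Agent.P272.K.AMP.hess ψ e (e x) + (ε : ℂ) • χ e (e x) := by
    have h4 : Vale.Agent.P272.K.AMP.hess ψ e (e x) = A e (e x) - addS θ χ ε e (e x) := h1.symm
    rw [h4]
    show A e (e x) = θ e (e x) + (A e (e x) - (θ e (e x) + (ε : ℂ) • χ e (e x))) +
      (ε : ℂ) • χ e (e x)
    abel
  rw [← h3]
  exact h2

theorem intX_of [T2Space X] [CompactSpace X] [IsManifold 𝓘(ℂ, Cm n) ω X] {A : Form n X} {I : ℝ}
    (h : IsVol A I) : intX (fun (e : Chart n X) z => (A e z).det.re) = I := by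
  exact h _ (Vale.Agent.P272.K.INT.part n X).e (Vale.Agent.P272.K.INT.part n X).ρ
    (Vale.Agent.P272.K.INT.part n X).cont
    (fun i x hx => ⟨(Vale.Agent.P272.K.INT.part n X).mem i,
      (Vale.Agent.P272.K.INT.part n X).supp i hx⟩) (Vale.Agent.P272.K.INT.part n X).sum

theorem con_of {g : X → ℂ} {α θ : Form n X} {z : X} (hz : NZ (Cm n) g z)
    (h : Deg (Cm n) n 0 (fun w => dv (Cm n) g z w = 0) (InKer (atx θ z)) (InKer (atx α z))) :
    H368.MFS.ConAt n g α θ z := by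
  rcases deg_of h with h | ⟨K, hK, hw⟩
  · exact h
  exfalso
  apply hz
  have h1 : K = ⊤ := by
    apply Submodule.eq_top_of_finrank_eq
    refine le_antisymm (Submodule.finrank_le K) ?_
    rw [Module.finrank_fin_fun]
    simpa using hK
  refine ContinuousLinearMap.ext fun w => ?_
  exact (hw w (h1 ▸ Submodule.mem_top)).1

theorem vol_of [IsManifold 𝓘(ℂ, Cm n) ω X] {m : ℕ} {k : Set X → ℕ} {W : X → ℝ} {β θ : Form n X}
    (h : VolX (Cm n) n 0 m k W (Pot θ zero) (fun z => InKer (atx θ z)) fun z => InKer (atx β z)) :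
    ∀ x, ∃ (r : ℕ) (g : Fin r → X → ℂ) (a : Fin r → ℕ),
      H368.MFS.VolLoc n m (fun (D : Set X) z g => J.IsLocalEq (Cm n) D g z) k W (fun _ _ => 0) θ
        x g a ∧ ∀ᶠ z in 𝓝 x, ∀ i, g i z = 0 → H368.MFS.ConAt n (g i) β θ z := by
  intro x
  obtain ⟨r, g, a, h1, h2⟩ := h x
  refine ⟨r, g, a, volLoc_of h1, ?_⟩
  have h3 : ∀ᶠ z in 𝓝 x, ∀ i, NZ (Cm n) (g i) z := eventually_all.2 fun i =>
    ISO.dif_ne_eventually (h1.1 i).1 (h1.1 i).2
  filter_upwards [h2, h3] with z hz hz' i hi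
  exact con_of (hz' i) (hz i hi)

theorem volF_of [IsManifold 𝓘(ℂ, Cm n) ω X] [IsManifold 𝓘(ℂ, Cm d) ω F] {m : ℕ} {k : Set X → ℕ}
    {Δ : Set X → ℝ} {W : X → ℝ} {β θ : Form n X} {ι : F → X}
    (hι : ContMDiff 𝓘(ℂ, Cm d) 𝓘(ℂ, Cm n) ω ι)
    (h : VolF (Cm n) (Cm d) d 0 m k Δ W (Pot θ zero) (fun z => InKer (atx θ z))
      (fun z => InKer (atx β z)) (fun _ => False) ι (fun t => InKer (atx (pull ι θ) t))
      fun t => InKer (atx (pull ι β) t)) :
    ∀ t, ∃ (r : ℕ) (g : Fin r → X → ℂ) (a : Fin r → ℕ),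
      H368.MFS.VolLoc n m (fun (D : Set X) z g => J.IsLocalEq (Cm n) D g z) k W (fun _ _ => 0) θ
        (ι t) g a ∧ (∀ l, J.dif (Cm d) (fun t => g l (ι t)) t ≠ 0) ∧
      ∀ l, (∀ᶠ z in 𝓝 (ι t), g l z = 0 →
        ∃ᶠ z' in 𝓝 z, g l z' = 0 ∧ H167.ML.RatAtM n Δ (g l) β θ z') ∨
      ∀ᶠ s in 𝓝 t, g l (ι s) = 0 →
        H368.MFS.ConAt d (fun t => g l (ι t)) (H368.MFS.pull ι β) (H368.MFS.pull ι θ) s := by
  intro t
  obtain ⟨r, g, a, h1, h2, h3⟩ := h t
  refine ⟨r, g, a, volLoc_of h1, h2, fun l => ?_⟩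
  have hg : HolV (Cm d) (fun s => g l (ι s)) t :=
    HolV.comp (h := g l) (E' := Cm n) (h1.1 l).1 (hι t)
  have h4 : ∀ᶠ s in 𝓝 t, NZ (Cm d) (fun s => g l (ι s)) s := ISO.dif_ne_eventually hg (h2 l)
  rcases h3 l with h3 | h3
  · refine Or.inl ?_
    filter_upwards [h3] with z hz hz0
    refine (hz hz0).mono fun z' hz' => ⟨hz'.1, ?_⟩
    obtain ⟨q, c, c', hq⟩ := hz'.2
    exact ratAtM_of hq
  · refine Or.inr ?_
    filter_upwards [h3, h4] with s hs hs' hl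
    rcases hs hl with hs | hs
    · have h6 : ∃ᶠ z' in 𝓝 s, False := hs.mono fun z' hz' => hz'.2.2
      simp at h6
    · exact con_of hs' hs

theorem nef_of (hN : H342.NU.NumNef) (hNR : H342.NU.NumNefR) {n p d : ℕ} (hn : n = p + d)
    {X Z Y F : Type}
    [TopologicalSpace X] [T2Space X] [CompactSpace X] [ConnectedSpace X] [ChartedSpace (Cm n) X]
    [TopologicalSpace Z] [ChartedSpace (Cm n) Z]
    [TopologicalSpace Y] [T2Space Y] [ConnectedSpace Y] [ChartedSpace (Cm p) Y]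
    [TopologicalSpace F] [T2Space F] [CompactSpace F] [ConnectedSpace F] [ChartedSpace (Cm d) F]
    (χ : Form n X) (hχ : IsKahler χ) (Δ : Set X → ℝ) (j : Z → X) (f : Z → Y) (i : F → Z)
    (hi : Setup (Cm n) (Cm p) (Cm d) Δ j f i) (ν : ℕ) (a : WithBot ℕ∞)
    (h : HasNef n d χ Δ (fun t => j (i t)) ν a) :
    a + kodF n p Δ j f ≤ ((ν : ℕ∞) : WithBot ℕ∞) := by
  obtain ⟨hX, hZ, hY, hF, hΔ, hj, hf, hi, hne⟩ := hi
  replace hΔ := isSNC_of hΔ
  haveI := hX
  haveI := hZ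
  haveI := hY
  haveI := hF
  obtain ⟨m, k, β, θ, W, c, C, hm, hk, hβ, hθ, hV, hinj, hc, hs, ha⟩ := h
  have g1 : ∀ᶠ s : ℝ in atTop, c * s ^ ν ≤
      intX fun (e : Chart n X) z => (addF β s θ e z).det.re := by
    filter_upwards [hs] with s hs
    obtain ⟨I, I', h1, h2, h4, h5⟩ := hs
    exact h4.trans (intX_of h1).ge
  have g2 : ∀ᶠ s : ℝ in atTop,
      (intX fun (e : Chart n X) z => (addF (addF β s θ) 1 χ e z).det.re) ≤ C * s ^ ν := by
    filter_upwards [hs] with s hs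
    obtain ⟨I, I', h1, h2, h4, h5⟩ := hs
    exact (intX_of h2).le.trans h5
  rw [kodF_eq]
  rcases ha with ⟨a', rfl, ha⟩ | ⟨rfl, hd, hVF⟩
  · refine hN n p d hn X Z Y F χ (isKahler_of hχ) Δ hΔ m hm k hk θ β (isNef_of hθ)
      (isSemiPos_of hβ.1) W (vol_of hV) j hj f hf i (smoothFibre_of hi)
      (fun t t' ht => hinj (congrArg j ht)) ν a' c C hc g1 g2 ?_
    filter_upwards [ha] with s hs
    obtain ⟨J, h3, h6⟩ := hs
    exact h6.trans (intX_of h3).ge
  · have hι : ContMDiff 𝓘(ℂ, Cm d) 𝓘(ℂ, Cm n) ω (fun t => j (i t)) := fun t =>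
      ContMDiffAt.comp t (hj.1 (i t)) (hi.1 t)
    exact hNR n p d hn X Z Y F χ (isKahler_of hχ) Δ hΔ m hm k hk θ β (isNef_of hθ)
      (isSemiPos_of hβ.1) W (vol_of hV) j hj f hf i (smoothFibre_of hi)
      (fun t t' ht => hinj (congrArg j ht)) hne (hd.mono fun t ht => ht) (volF_of hι hVF) ν c C hc
      g1 g2

end Vale.Agent.P281.FS
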