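import Vale.Agent.P281.H723.FS.ConvM
import Vale.Agent.P281.H723.FL.NumR
import Vale.Agent.P281.H575.MFS.Fib

/-! P281: the hypotheses of the final statement imply those of theorem U. -/

namespace Vale.Agent.P281.FS

open scoped Manifold ContDiff Topology ComplexOrder
open Filter Set

set_option linter.all false

theorem num_of (hU : H723.FL.NumPart) (hUF : H723.FL.NumPartR) {n p d : ℕ} (hn : n = p + d)
    {X Z Y F : Type}
    [TopologicalSpace X] [T2Space X] [CompactSpace X] [ConnectedSpace X] [ChartedSpace (Cm n) X]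
    [TopologicalSpace Z] [ChartedSpace (Cm n) Z]
    [TopologicalSpace Y] [T2Space Y] [ConnectedSpace Y] [ChartedSpace (Cm p) Y]
    [TopologicalSpace F] [T2Space F] [CompactSpace F] [ConnectedSpace F] [ChartedSpace (Cm d) F]
    (χ : Form n X) (hχ : IsKahler χ) (Δ : Set X → ℝ) (j : Z → X) (f : Z → Y) (i : F → Z)
    (hi : Setup (Cm n) (Cm p) (Cm d) Δ j f i) (ν : ℕ) (a : WithBot ℕ∞)
    (h : HasNum n d Δ (fun t => j (i t)) ν a) : a + kodF n p Δ j f ≤ ν := by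
  obtain ⟨hX, hZ, hY, hF, hΔ, hj, hf, hi, hne⟩ := hi
  replace hΔ := isSNC_of hΔ
  haveI := hX
  haveI := hZ
  haveI := hY
  haveI := hF
  obtain ⟨m, νF, k, β, θ, W, ⟨hm, hk, hβ, hθ, hθν, hθd, ⟨t, ht⟩, hV⟩, ha⟩ := h
  rw [kodF_eq]
  have h1 : ((νF : ℕ∞) : WithBot ℕ∞) + H713.TL.kodF (n := n) (p := p) Δ j f ≤
      ((ν : ℕ∞) : WithBot ℕ∞) := by
    refine hU n p d hn X Z Y F χ (isKahler_of hχ) Δ hΔ m hm k hk θ β (isSemiPos_of hθ)
      (isSemiPos_of hβ.1) hβ.2 ν (fun e x hx => rank_le hθ hθν e x hx) hθd W (fun x => ?_) j hj f hf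
      i (smoothFibre_of hi) νF ⟨t, ?_⟩
    · obtain ⟨r, g, a, h1, h2⟩ := hV x
      refine ⟨r, g, a, volLoc_of h1, ?_⟩
      filter_upwards [h2] with z hz i hi
      exact deg_of (hz i hi)
    · rw [pull_eq]
      exact ht
  rcases ha with rfl | ⟨rfl, hle, hβd, hVF⟩
  · exact h1
  refine le_trans ?_ h1
  have hι : ContMDiff 𝓘(ℂ, Cm d) 𝓘(ℂ, Cm n) ω (fun t => j (i t)) := fun t =>
    ContMDiffAt.comp t (hj.1 (i t)) (hi.1 t)
  have hp := H575.MFS.isSemiPos_pull hι (isSemiPos_of hθ)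
  refine hUF n p d hn X Z Y F χ (isKahler_of hχ) Δ hΔ m hm k hk θ β (isSemiPos_of hθ)
    (isSemiPos_of hβ.1) W j hj f hf i (smoothFibre_of hi) hne (hβd.mono fun t ht => ?_) νF
    (fun e t he => ?_) ⟨t, ?_⟩ (fun t => ?_)
  · show (H368.MFS.pull _ _ _ _).PosDef
    rw [pull_eq]
    exact ht
  · rw [hp.change e _ t he (at_chart t)]
    refine le_trans (Matrix.rank_mul_le_left _ _) (le_trans (Matrix.rank_mul_le_right _ _) ?_)
    rw [pull_eq]
    exact hle t
  · rw [pull_eq]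
    exact ht
  · obtain ⟨r, g, a, h1, h2, h3⟩ := hVF t
    refine ⟨r, g, a, volLoc_of h1, h2, fun l => ?_⟩
    rcases h3 l with h3 | h3
    · refine Or.inl ?_
      filter_upwards [h3] with z hz hz0
      refine (hz hz0).mono fun z' hz' => ⟨hz'.1, ?_⟩
      obtain ⟨q, c, c', hq⟩ := hz'.2
      exact ratAtM_of hq
    refine Or.inr ?_
    filter_upwards [h3] with s hs hl
    rcases hs hl with hs | ⟨w, h4, h5, h6, h7⟩ | hs
    · exact absurd (hs.mono fun s' hs' => hs'.2.2) (by simp)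
    · refine Or.inl ⟨w, h4, h5, ?_, ?_⟩
      · rw [pull_eq]; exact h7
      · rw [pull_eq]; exact h6
    · refine Or.inr ?_
      obtain ⟨K, h8, h9⟩ := hs
      refine ⟨K, h8, fun w hw => ⟨(h9 w hw).1, ?_⟩⟩
      rw [pull_eq]
      exact (h9 w hw).2

end Vale.Agent.P281.FS
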