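import Vale.Agent.P281.H723.FS.Conv
import Vale.Agent.P281.H716.LC.Iface
import Vale.Agent.P281.H713.CO.GMain

/-! P281: the parts (A) and (C) of the final statement. -/

namespace Vale.Agent.P281.FS

open scoped Manifold ContDiff Topology ComplexOrder
open Filter Set

set_option linter.all false

theorem main_of (hR : H716.LC.MainPartC) {n p d : ℕ} (hn : n = p + d) {X Z Y F : Type}
    [TopologicalSpace X] [T2Space X] [CompactSpace X] [ConnectedSpace X] [ChartedSpace (Cm n) X]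
    [TopologicalSpace Z] [ChartedSpace (Cm n) Z]
    [TopologicalSpace Y] [T2Space Y] [ConnectedSpace Y] [ChartedSpace (Cm p) Y]
    [TopologicalSpace F] [T2Space F] [CompactSpace F] [ConnectedSpace F] [ChartedSpace (Cm d) F]
    (χ : Form n X) (hχ : IsKahler χ) (Δ : Set X → ℝ) (j : Z → X) (f : Z → Y) (i : F → Z)
    (hi : Setup (Cm n) (Cm p) (Cm d) Δ j f i) (hgood : HasGood n d Δ (fun t => j (i t))) :
    kodR (Cm n) (Cm d) (fun t => j (i t)) Δ + kodF n p Δ j f ≤ kodX (Cm n) Δ := by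
  obtain ⟨hX, hZ, hY, hF, hΔ, hj, hf, hi, hne⟩ := hi
  replace hΔ := isSNC_of hΔ
  haveI := hX
  haveI := hZ
  haveI := hY
  haveI := hF
  obtain ⟨Δ₀, t, m, m', N, N', k, k', S, S', ⟨h1, ht, ht1, hm, hm', hS, hS'⟩, hg, hgF⟩ := hgood
  obtain ⟨ν, β, hβ, hν, hgX⟩ := Vale.Agent.P281.S.good2_of (goodFix_of hg)
  rw [kodF_eq]
  refine hR n p d hn X Z Y F χ (isKahler_of hχ) Δ Δ₀ hΔ (fun D => (h1 D).1) t
    ht ht1 m N hm k (fun D => (h1 D).2.1) S hS m' N' hm' k' (fun D => (h1 D).2.2) S' hS' j hj f hf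
    i (smoothFibre_of hi) hne ν hν β hβ hgX ?_
  rcases hgF with hgF | hgF
  · obtain ⟨νF, βF, hβF, hνF, hF⟩ := Vale.Agent.P281.S.goodP_of (goodFix_of hgF)
    exact Or.inl ⟨νF, βF, hνF, hβF, hF⟩
  · exact Or.inr (ratFix_of hgF)

theorem orb_of {n p d : ℕ} {X Z Y F : Type}
    [TopologicalSpace X] [T2Space X] [ConnectedSpace X] [ChartedSpace (Cm n) X]
    [TopologicalSpace Z] [ChartedSpace (Cm n) Z]
    [TopologicalSpace Y] [ChartedSpace (Cm p) Y]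
    [TopologicalSpace F] [ConnectedSpace F] [ChartedSpace (Cm d) F]
    (Δ : Set X → ℝ) (j : Z → X) (f : Z → Y) (i : F → Z)
    (hi : Setup (Cm n) (Cm p) (Cm d) Δ j f i) :
    OrbLe (Cm n) (Cm p) Δ j f (kodF n p Δ j f) := by
  obtain ⟨hX, hZ, hY, hF, hΔ, hj, hf, hi, hne⟩ := hi
  replace hΔ := isSNC_of hΔ
  haveI := hX
  haveI := hZ
  haveI := hY
  rintro Δ₁ Γ ⟨hΔ₁, h1, h2⟩ hΓ hnc hmor
  obtain ⟨t₀⟩ := (inferInstance : Nonempty F)
  have h : kodX (Cm p) Γ ≤ kodF n p Δ j f := by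
    rw [kodF_eq]
    exact H713.CO.comp_g H413.TZ.genPart hΔ hj hf ⟨i t₀, hi.2.2.2 t₀⟩ hΓ hnc (isSNC_of hΔ₁)
      ⟨h1, h2⟩ hmor
  refine ⟨h, ?_⟩
  rintro M₀ X' tX cX f' Δ' hM rfl
  exact (iInf₂_le _ hM).trans h

end Vale.Agent.P281.FS
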