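import Vale.Agent.P281.H723.FS.Fin
import Vale.Agent.P281.H723.FS.ConvM
import Vale.Agent.P281.H723.FS.ConvU
import Vale.Agent.P281.H723.FS.ConvN

/-! P281: the final statement from the theorems `MainPartC`, `MainPartML`, `NumPart`, `NumPartR`
and `NumNef`. -/

namespace Vale.Agent.P281.FS

open scoped Manifold ContDiff Topology ComplexOrder
open Filter Set

set_option linter.all false

theorem final_of (hR : H716.LC.MainPartC) (hM : H167.ML.MainPartML)
    (hU : H723.FL.NumPart) (hUF : H723.FL.NumPartR) (hN : H342.NU.NumNef)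
    (hNR : H342.NU.NumNefR)
    {n p d : ℕ} (hn : n = p + d) {X Z Y F : Type}
    [TopologicalSpace X] [T2Space X] [CompactSpace X] [ConnectedSpace X] [Mfd n X]
    [TopologicalSpace Z] [Mfd n Z]
    [TopologicalSpace Y] [T2Space Y] [ConnectedSpace Y] [Mfd p Y]
    [TopologicalSpace F] [T2Space F] [CompactSpace F] [ConnectedSpace F] [Mfd d F]
    (χ : Form n X) (hχ : IsKahler χ) (Δ : Set X → ℝ) (j : Z → X) (f : Z → Y) (i : F → Z)
    (hi : Setup (Cm n) (Cm p) (Cm d) Δ j f i) :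
    (HasGood n d Δ (fun t => j (i t)) →
      kodR (Cm n) (Cm d) (fun t => j (i t)) Δ + kodF n p Δ j f ≤ kodX (Cm n) Δ) ∧
    (HasMori n d Δ (fun t => j (i t)) →
      kodR (Cm n) (Cm d) (fun t => j (i t)) Δ + kodF n p Δ j f = ⊥) ∧
    OrbLe (Cm n) (Cm p) Δ j f (kodF n p Δ j f) ∧
    (∀ ν a, HasNum n d Δ (fun t => j (i t)) ν a → a + kodF n p Δ j f ≤ ν) ∧
    ∀ (ν : ℕ) a, HasNef n d χ Δ (fun t => j (i t)) ν a → a + kodF n p Δ j f ≤ ν :=
  ⟨main_of hR hn χ hχ Δ j f i hi, mori_of hM hn χ hχ Δ j f i hi,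
    orb_of Δ j f i hi,
    num_of hU hUF hn χ hχ Δ j f i hi, nef_of hN hNR hn χ hχ Δ j f i hi⟩

end Vale.Agent.P281.FS
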